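import Vale.Agent.P229.HomProfile
import Vale.Agent.P229.Spiral

open scoped ContDiff
open Set

namespace Vale.Agent.Results.P229.HomotheticField

/-- The two coordinate vectors of the plane. -/
def e (i : Fin 2) : ℝ × ℝ := if i = 0 then (1, 0) else (0, 1)

/-- The two coordinates of a vector of the plane. -/
def co (v : ℝ × ℝ) (i : Fin 2) : ℝ := if i = 0 then v.1 else v.2

/-- `g` is (the matrix of coefficients of) a smooth positive definite Riemannian metric on the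
open subset `Ω` of the plane. -/
structure IsSmoothMetric (Ω : Set (ℝ × ℝ)) (g : ℝ × ℝ → Matrix (Fin 2) (Fin 2) ℝ) : Prop where
  isOpen : IsOpen Ω
  smooth : ∀ i j, ContDiffOn ℝ ∞ (fun q => g q i j) Ω
  posDef : ∀ q ∈ Ω, (g q).PosDef

/-- The metric `g` on `Ω` is locally smoothly realizable at `p`: some open neighbourhood `U` of
`p` in `Ω` has a smooth isometric immersion into Euclidean three-space. -/
def LocallyRealizable (Ω : Set (ℝ × ℝ)) (g : ℝ × ℝ → Matrix (Fin 2) (Fin 2) ℝ) (p : ℝ × ℝ) :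
    Prop :=
  ∃ U : Set (ℝ × ℝ), IsOpen U ∧ p ∈ U ∧ U ⊆ Ω ∧
    ∃ F : ℝ × ℝ → EuclideanSpace ℝ (Fin 3), ContDiffOn ℝ ∞ F U ∧
      ∀ q ∈ U, ∀ i j : Fin 2, inner ℝ (fderiv ℝ F q (e i)) (fderiv ℝ F q (e j)) = g q i j

/-- The second coordinate field is homothetic for the metric `h` on `Ω`, with constant `c`
(a Killing field for `c = 0`). -/
def SecondFieldHomothetic (Ω : Set (ℝ × ℝ)) (h : ℝ × ℝ → Matrix (Fin 2) (Fin 2) ℝ) (c : ℝ) :
    Prop :=
  ∀ q ∈ Ω, ∀ i j, fderiv ℝ (fun q' => h q' i j) q (0, 1) = 2 * c * h q i j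

/-- On the open neighbourhood `V` of `p` in `Ω` the metric `g` is the pull-back, under a smooth
map `φ` (a change of coordinates, for instance), of a smooth metric `h` for which the second
coordinate field is homothetic. -/
def HasHomotheticCoordinates (Ω : Set (ℝ × ℝ)) (g : ℝ × ℝ → Matrix (Fin 2) (Fin 2) ℝ)
    (p : ℝ × ℝ) : Prop :=
  ∃ (c : ℝ) (V Ω' : Set (ℝ × ℝ)) (φ : ℝ × ℝ → ℝ × ℝ) (h : ℝ × ℝ → Matrix (Fin 2) (Fin 2) ℝ),
    IsOpen V ∧ p ∈ V ∧ V ⊆ Ω ∧ ContDiffOn ℝ ∞ φ V ∧ MapsTo φ V Ω' ∧ IsSmoothMetric Ω' h ∧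
    SecondFieldHomothetic Ω' h c ∧
    ∀ q ∈ V, ∀ i j, g q i j =
      ∑ k, ∑ l, h (φ q) k l * co (fderiv ℝ φ q (e i)) k * co (fderiv ℝ φ q (e j)) l

/-- A smooth metric for which the second coordinate field is homothetic is locally smoothly
realizable. -/
theorem coordinate_case (Ω : Set (ℝ × ℝ)) (g : ℝ × ℝ → Matrix (Fin 2) (Fin 2) ℝ)
    (hg : IsSmoothMetric Ω g) (c : ℝ) (hK : SecondFieldHomothetic Ω g c) :
    ∀ p ∈ Ω, LocallyRealizable Ω g p := by
  intro p hp
  obtain ⟨ε, hε, hball⟩ := Metric.isOpen_iff.1 hg.isOpen p hp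
  set a := p.1 - ε with ha
  set b := p.1 + ε with hb
  have hbox : ∀ q : ℝ × ℝ, q.1 ∈ Ioo a b → q.2 ∈ Ioo (p.2 - ε) (p.2 + ε) → q ∈ Ω := by
    intro q h1 h2
    apply hball
    rw [Metric.mem_ball, Prod.dist_eq, max_lt_iff, Real.dist_eq, Real.dist_eq, abs_lt, abs_lt]
    refine ⟨⟨?_, ?_⟩, ?_, ?_⟩
    · linarith [h1.1]
    · linarith [h1.2]
    · linarith [h2.1]
    · linarith [h2.2]
  have hp2 : p.2 ∈ Ioo (p.2 - ε) (p.2 + ε) := ⟨by linarith, by linarith⟩
  have hp1 : p.1 ∈ Ioo a b := ⟨by linarith, by linarith⟩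
  -- the dependence on the second coordinate in the square
  have hconst : ∀ q : ℝ × ℝ, q.1 ∈ Ioo a b → q.2 ∈ Ioo (p.2 - ε) (p.2 + ε) → ∀ i j,
      Real.exp (-(2 * c) * q.2) * g q i j = Real.exp (-(2 * c) * p.2) * g (q.1, p.2) i j := by
    intro q h1 h2 i j
    have hdiff : ∀ y ∈ Ioo (p.2 - ε) (p.2 + ε),
        HasDerivAt (fun y : ℝ => Real.exp (-(2 * c) * y) * g (q.1, y) i j) 0 y := by
      intro y hy
      have hmem : (q.1, y) ∈ Ω := hbox (q.1, y) h1 hy
      have hd : DifferentiableAt ℝ (fun q' => g q' i j) (q.1, y) :=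
        ((hg.smooth i j).differentiableOn (by simp)).differentiableAt
          (hg.isOpen.mem_nhds hmem)
      have hline : HasDerivAt (fun y : ℝ => ((q.1, y) : ℝ × ℝ)) (0, 1) y :=
        (hasDerivAt_const y q.1).prodMk (hasDerivAt_id y)
      have hcomp := hd.hasFDerivAt.comp_hasDerivAt y hline
      rw [hK _ hmem i j] at hcomp
      have hexp : HasDerivAt (fun y : ℝ => Real.exp (-(2 * c) * y))
          (Real.exp (-(2 * c) * y) * (-(2 * c))) y := by
        have h0 : HasDerivAt (fun y : ℝ => -(2 * c) * y) (-(2 * c)) y := by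
          simpa using (hasDerivAt_id y).const_mul (-(2 * c))
        exact h0.exp
      have hmul := hexp.mul hcomp
      refine hmul.congr_deriv ?_
      simp only [Function.comp_apply]
      ring
    have := (convex_Ioo (p.2 - ε) (p.2 + ε)).is_const_of_fderivWithin_eq_zero (𝕜 := ℝ)
      (f := fun y : ℝ => Real.exp (-(2 * c) * y) * g (q.1, y) i j)
      (fun y hy => (hdiff y hy).differentiableAt.differentiableWithinAt)
      (fun y hy => by
        rw [fderivWithin_of_isOpen isOpen_Ioo hy, (hdiff y hy).hasFDerivAt.fderiv]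
        ext
        simp) h2 hp2
    exact this
  have hline : ContDiffOn ℝ ∞ (fun x : ℝ => ((x, p.2) : ℝ × ℝ)) (Ioo a b) :=
    contDiffOn_id.prodMk contDiffOn_const
  set C : ℝ := Real.exp (-(2 * c) * p.2) with hC
  have hCpos : 0 < C := Real.exp_pos _
  have hsm : ∀ i j, ContDiffOn ℝ ∞ (fun x : ℝ => C * g (x, p.2) i j) (Ioo a b) := fun i j =>
    contDiffOn_const.mul ((hg.smooth i j).comp hline (fun x hx => hbox (x, p.2) hx hp2))
  have hpd : ∀ x ∈ Ioo a b, 0 < g (x, p.2) 1 1 ∧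
      g (x, p.2) 0 1 ^ 2 < g (x, p.2) 0 0 * g (x, p.2) 1 1 ∧
      g (x, p.2) 1 0 = g (x, p.2) 0 1 := by
    intro x hx
    have hP := hg.posDef _ (hbox (x, p.2) hx hp2)
    have hsymm : g (x, p.2) 1 0 = g (x, p.2) 0 1 := by
      have := hP.isHermitian.apply 0 1
      simpa using this
    have hdet := hP.det_pos
    rw [Matrix.det_fin_two, hsymm] at hdet
    have h11 : 0 < g (x, p.2) 1 1 := hP.diag_pos
    exact ⟨h11, by nlinarith, hsymm⟩
  obtain ⟨a', b', hx0, hsub, m, r, th, z, r1, th1, z1, hr, hth, hz, hprof⟩ :=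
    Vale.Agent.P229.exists_profile_hom c (fun x => C * g (x, p.2) 0 0)
      (fun x => C * g (x, p.2) 0 1) (fun x => C * g (x, p.2) 1 1) (hsm 0 0) (hsm 0 1) (hsm 1 1)
      (fun x hx => mul_pos hCpos (hpd x hx).1) p.1 hp1 (by
        have h1 := (hpd p.1 hp1).2.1
        have h2 : 0 < C ^ 2 := by positivity
        show (C * g (p.1, p.2) 0 1) ^ 2 < C * g (p.1, p.2) 0 0 * (C * g (p.1, p.2) 1 1)
        have h3 := mul_lt_mul_of_pos_left h1 h2
        linarith [h3])
  refine ⟨(Prod.fst ⁻¹' Ioo a' b') ∩ (Prod.snd ⁻¹' Ioo (p.2 - ε) (p.2 + ε)),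
    (isOpen_Ioo.preimage continuous_fst).inter (isOpen_Ioo.preimage continuous_snd),
    ⟨hx0, hp2⟩, fun q hq => hbox q (hsub hq.1) hq.2, Vale.Agent.P229.spir c m r th z,
    (Vale.Agent.P229.spir_contDiffOn c m r th z hr hth hz).mono inter_subset_left, ?_⟩
  rintro q ⟨hq1, hq2⟩
  obtain ⟨d1, d2, d3, e1, e2, e3⟩ := hprof q.1 hq1
  obtain ⟨m00, m01, m11⟩ := Vale.Agent.P229.spir_metric c m r th z r1 th1 z1
    (fun x => C * g (x, p.2) 0 0) (fun x => C * g (x, p.2) 0 1) (fun x => C * g (x, p.2) 1 1)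
    hr hth hz q hq1 d1 d2 d3 e1 e2 e3
  have hc : ∀ i j, Real.exp (c * q.2) ^ 2 * (C * g (q.1, p.2) i j) = g q i j := by
    intro i j
    rw [← hconst q (hsub hq1) hq2 i j, ← mul_assoc, ← Real.exp_nat_mul, ← Real.exp_add]
    have : ((2 : ℕ) : ℝ) * (c * q.2) + -(2 * c) * q.2 = 0 := by
      push_cast
      ring
    rw [this, Real.exp_zero, one_mul]
  intro i j
  rw [← hc i j]
  fin_cases i <;> fin_cases j
  · exact m00
  · exact m01
  · show inner ℝ (fderiv ℝ _ q (0, 1)) (fderiv ℝ _ q (1, 0))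
      = Real.exp (c * q.2) ^ 2 * (C * g (q.1, p.2) 1 0)
    rw [(hpd q.1 (hsub hq1)).2.2, real_inner_comm]
    exact m01
  · exact m11

/-- Every smooth metric on a planar domain is locally smoothly realizable at each point near which
it is, in suitable smooth coordinates, a metric whose second coordinate field is homothetic. -/
theorem result (Ω : Set (ℝ × ℝ)) (g : ℝ × ℝ → Matrix (Fin 2) (Fin 2) ℝ)
    (_hg : IsSmoothMetric Ω g) (p : ℝ × ℝ) (_hp : p ∈ Ω) (hH : HasHomotheticCoordinates Ω g p) :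
    LocallyRealizable Ω g p := by
  obtain ⟨c, V, Ω', φ, h, hV, hpV, hVΩ, hφ, hmaps, hh, hK, hpull⟩ := hH
  obtain ⟨U, hU, hpU, -, F, hF, hmet⟩ := coordinate_case Ω' h hh c hK (φ p) (hmaps hpV)
  refine ⟨V ∩ φ ⁻¹' U, hφ.continuousOn.isOpen_inter_preimage hV hU, ⟨hpV, hpU⟩,
    fun q hq => hVΩ hq.1, F ∘ φ, hF.comp (hφ.mono inter_subset_left) (fun q hq => hq.2), ?_⟩
  rintro q ⟨hqV, hqU⟩ i j
  have dF : HasFDerivAt F (fderiv ℝ F (φ q)) (φ q) :=
    ((hF.differentiableOn (by simp)).differentiableAt (hU.mem_nhds hqU)).hasFDerivAt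
  have dφ : HasFDerivAt φ (fderiv ℝ φ q) q :=
    ((hφ.differentiableOn (by simp)).differentiableAt (hV.mem_nhds hqV)).hasFDerivAt
  rw [(dF.comp q dφ).fderiv, hpull q hqV i j]
  have hco : ∀ v : ℝ × ℝ, v = ∑ k, co v k • e k := by
    intro v
    rw [Fin.sum_univ_two]
    simp [co, e]
  simp only [ContinuousLinearMap.comp_apply]
  generalize fderiv ℝ φ q (e i) = v
  generalize fderiv ℝ φ q (e j) = w
  conv_lhs => rw [hco v, hco w]
  simp only [map_sum, map_smul, sum_inner, inner_sum, real_inner_smul_left,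
    real_inner_smul_right, hmet (φ q) hqU]
  rw [Finset.sum_comm]
  refine Finset.sum_congr rfl (fun k _ => Finset.sum_congr rfl (fun l _ => ?_))
  ring

end Vale.Agent.Results.P229.HomotheticField
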