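import Vale.Agent.H8MouldC
import Vale.Agent.Results.P229.HomotheticField

open scoped ContDiff
open Set

namespace Vale.Agent.Results.P229.CombinedClasses

/-- The two coordinate vectors of the plane. -/
def e (i : Fin 2) : ℝ × ℝ := if i = 0 then (1, 0) else (0, 1)

/-- The two coordinates of a vector of the plane. -/
def co (v : ℝ × ℝ) (i : Fin 2) : ℝ := if i = 0 then v.1 else v.2

/-- The partial derivative of the real function `f` in the `i`-th coordinate direction. -/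
noncomputable def pd (i : Fin 2) (f : ℝ × ℝ → ℝ) (q : ℝ × ℝ) : ℝ := fderiv ℝ f q (e i)

/-- `g` is (the matrix of coefficients of) a smooth positive definite Riemannian metric on the
open subset `Ω` of the plane. -/
structure IsSmoothMetric (Ω : Set (ℝ × ℝ)) (g : ℝ × ℝ → Matrix (Fin 2) (Fin 2) ℝ) : Prop where
  isOpen : IsOpen Ω
  smooth : ∀ i j, ContDiffOn ℝ ∞ (fun q => g q i j) Ω
  posDef : ∀ q ∈ Ω, (g q).PosDef

/-- The metric `g` on `Ω` is locally smoothly realizable at `p`: some open neighbourhood `U` of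
`p` in `Ω` has a smooth isometric immersion into Euclidean three-space. -/
def LocallyRealizable (Ω : Set (ℝ × ℝ)) (g : ℝ × ℝ → Matrix (Fin 2) (Fin 2) ℝ) (p : ℝ × ℝ) :
    Prop :=
  ∃ U : Set (ℝ × ℝ), IsOpen U ∧ p ∈ U ∧ U ⊆ Ω ∧
    ∃ F : ℝ × ℝ → EuclideanSpace ℝ (Fin 3), ContDiffOn ℝ ∞ F U ∧
      ∀ q ∈ U, ∀ i j : Fin 2, inner ℝ (fderiv ℝ F q (e i)) (fderiv ℝ F q (e j)) = g q i j

/-- On the open set `V` the metric `g` is the pull-back, under a smooth map `φ` (a change of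
coordinates, for instance), of a smooth metric `h` with `∂₂ h = 2 c h` for a real constant `c`:
the second coordinate field is homothetic for `h`, a Killing field if `c = 0`. -/
def HomotheticClass (V : Set (ℝ × ℝ)) (g : ℝ × ℝ → Matrix (Fin 2) (Fin 2) ℝ) : Prop :=
  ∃ (c : ℝ) (Ω' : Set (ℝ × ℝ)) (φ : ℝ × ℝ → ℝ × ℝ) (h : ℝ × ℝ → Matrix (Fin 2) (Fin 2) ℝ),
    ContDiffOn ℝ ∞ φ V ∧ MapsTo φ V Ω' ∧ IsSmoothMetric Ω' h ∧
    (∀ q ∈ Ω', ∀ i j, fderiv ℝ (fun q' => h q' i j) q (0, 1) = 2 * c * h q i j) ∧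
    ∀ q ∈ V, ∀ i j, g q i j =
      ∑ k, ∑ l, h (φ q) k l * co (fderiv ℝ φ q (e i)) k * co (fderiv ℝ φ q (e j)) l

/-- `g = E(u) du² + (a(v) + b(v) r(u) + c(v) h(u))² dv²` on `V`, where `u, v` are smooth functions
on `V`, the six functions of one variable are smooth, and `c = 0` or `E = r'² + h'²`. -/
def MouldingClass (V : Set (ℝ × ℝ)) (g : ℝ × ℝ → Matrix (Fin 2) (Fin 2) ℝ) : Prop :=
  ∃ (u v : ℝ × ℝ → ℝ) (E a b c r h : ℝ → ℝ), ContDiffOn ℝ ∞ u V ∧ ContDiffOn ℝ ∞ v V ∧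
    ContDiff ℝ ∞ E ∧ ContDiff ℝ ∞ a ∧ ContDiff ℝ ∞ b ∧ ContDiff ℝ ∞ c ∧
    ContDiff ℝ ∞ r ∧ ContDiff ℝ ∞ h ∧
    ((∀ t, c t = 0) ∨ ∀ s, E s = deriv r s ^ 2 + deriv h s ^ 2) ∧
    ∀ q ∈ V, ∀ i j, g q i j = E (u q) * pd i u q * pd j u q +
      (a (v q) + b (v q) * r (u q) + c (v q) * h (u q)) ^ 2 * pd i v q * pd j v q

/-- `g = E(u) du² + 2 P(u) Q(v) du dv + G(v) dv²` on `V`, where `u, v` are smooth functions on `V`
and the four functions of one variable are smooth. -/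
def ProductNetClass (V : Set (ℝ × ℝ)) (g : ℝ × ℝ → Matrix (Fin 2) (Fin 2) ℝ) : Prop :=
  ∃ (u v : ℝ × ℝ → ℝ) (E P Q G : ℝ → ℝ), ContDiffOn ℝ ∞ u V ∧ ContDiffOn ℝ ∞ v V ∧
    ContDiff ℝ ∞ E ∧ ContDiff ℝ ∞ P ∧ ContDiff ℝ ∞ Q ∧ ContDiff ℝ ∞ G ∧
    ∀ q ∈ V, ∀ i j, g q i j = E (u q) * pd i u q * pd j u q +
      P (u q) * Q (v q) * (pd i u q * pd j v q + pd i v q * pd j u q) +
      G (v q) * pd i v q * pd j v q

/-- Every smooth metric on a planar domain is locally smoothly realizable at each point which has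
an open neighbourhood on which the metric belongs to one of the three classes. -/
theorem result (Ω : Set (ℝ × ℝ)) (g : ℝ × ℝ → Matrix (Fin 2) (Fin 2) ℝ)
    (hg : IsSmoothMetric Ω g) (p : ℝ × ℝ) (V : Set (ℝ × ℝ)) (hV : IsOpen V) (hp : p ∈ V)
    (hVΩ : V ⊆ Ω) (hclass : HomotheticClass V g ∨ MouldingClass V g ∨ ProductNetClass V g) :
    LocallyRealizable Ω g p := by
  have hpos : ∀ ξ : Fin 2 → ℝ, ξ ≠ 0 → 0 < ∑ i, ∑ j, g p i j * ξ i * ξ j := by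
    intro ξ hξ
    have := (hg.posDef p (hVΩ hp)).dotProduct_mulVec_pos hξ
    simp only [dotProduct, Matrix.mulVec, Fin.sum_univ_two, star_trivial, Pi.star_apply] at this
    simp only [Fin.sum_univ_two]
    linarith
  rcases hclass with h | h | h
  · obtain ⟨c, Ω', φ, h, hφ, hmaps, hh, hK, hpull⟩ := h
    exact HomotheticField.result Ω g ⟨hg.isOpen, hg.smooth, hg.posDef⟩ p (hVΩ hp)
      ⟨c, V, Ω', φ, h, hV, hp, hVΩ, hφ, hmaps, ⟨hh.isOpen, hh.smooth, hh.posDef⟩, hK, hpull⟩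
  · obtain ⟨u, v, E, a, b, c, r, h, hu, hv, h1⟩ := h
    obtain ⟨U, hU, hpU, hUV, F, hF, hm⟩ := H8MouldC.moulding (e := e) (g := g) hV hp hpos hu hv
      ⟨E, a, b, c, r, h, h1⟩
    exact ⟨U, hU, hpU, hUV.trans hVΩ, F, hF, hm⟩
  · obtain ⟨u, v, E, P, Q, G, hu, hv, h1⟩ := h
    obtain ⟨U, hU, hpU, hUV, F, hF, hm⟩ := H8MouldC.productNet (e := e) (g := g) hV hp hpos hu hv
      ⟨E, P, Q, G, h1⟩
    exact ⟨U, hU, hpU, hUV.trans hVΩ, F, hF, hm⟩

end Vale.Agent.Results.P229.CombinedClasses
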