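import Vale.Agent.H8Mould

namespace Vale.Agent.Results.P229.MouldingMetrics

open scoped ContDiff
open Set

/-- The partial derivative of `f` at `x` in the `i`-th coordinate direction of the plane. -/
noncomputable def pd {X : Type*} [NormedAddCommGroup X] [NormedSpace ℝ X] (i : Fin 2)
    (f : EuclideanSpace ℝ (Fin 2) → X) (x : EuclideanSpace ℝ (Fin 2)) : X :=
  fderiv ℝ f x (EuclideanSpace.single i 1)

/-- `g` is a smooth Riemannian metric on the plane set `Ω`: its coefficients are smooth on `Ω`,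
symmetric, and positive definite at every point of `Ω`. -/
def SmoothMetricOn (g : EuclideanSpace ℝ (Fin 2) → Fin 2 → Fin 2 → ℝ)
    (Ω : Set (EuclideanSpace ℝ (Fin 2))) : Prop :=
  (∀ i j, ContDiffOn ℝ ∞ (fun x => g x i j) Ω) ∧
  ∀ x ∈ Ω, (∀ i j, g x i j = g x j i) ∧
    ∀ ξ : Fin 2 → ℝ, ξ ≠ 0 → 0 < ∑ i, ∑ j, g x i j * ξ i * ξ j

/-- Some open neighbourhood `U ⊆ Ω` of `p` has a smooth map to Euclidean three-space with
`⟨∂ᵢF, ∂ⱼF⟩ = gᵢⱼ` on `U`. -/
def SmoothlyRealizableAt (g : EuclideanSpace ℝ (Fin 2) → Fin 2 → Fin 2 → ℝ)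
    (Ω : Set (EuclideanSpace ℝ (Fin 2))) (p : EuclideanSpace ℝ (Fin 2)) : Prop :=
  ∃ U : Set (EuclideanSpace ℝ (Fin 2)), IsOpen U ∧ p ∈ U ∧ U ⊆ Ω ∧
    ∃ F : EuclideanSpace ℝ (Fin 2) → EuclideanSpace ℝ (Fin 3), ContDiffOn ℝ ∞ F U ∧
      ∀ x ∈ U, ∀ i j, inner ℝ (pd i F x) (pd j F x) = g x i j

theorem assemble {Ω : Set (EuclideanSpace ℝ (Fin 2))} (hΩ : IsOpen Ω)
    {g : EuclideanSpace ℝ (Fin 2) → Fin 2 → Fin 2 → ℝ} {p : EuclideanSpace ℝ (Fin 2)}
    (hp : p ∈ Ω) {u v : EuclideanSpace ℝ (Fin 2) → ℝ} (hu : ContDiffOn ℝ ∞ u Ω)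
    (hv : ContDiffOn ℝ ∞ v Ω) {I : Set ℝ} (hI : IsOpen I) (hpI : u p ∈ I)
    {r h dr dh E : ℝ → ℝ} (hr : ContDiffOn ℝ ∞ r I) (hh : ContDiffOn ℝ ∞ h I)
    (hdr : ∀ s ∈ I, HasDerivAt r (dr s) s) (hdh : ∀ s ∈ I, HasDerivAt h (dh s) s)
    (hE : ∀ s ∈ I, E s = dr s ^ 2 + dh s ^ 2)
    {a b c : ℝ → ℝ} (ha : ContDiff ℝ ∞ a) (hb : ContDiff ℝ ∞ b) (hc : ContDiff ℝ ∞ c)
    (hg : ∀ x ∈ Ω, ∀ i j, g x i j = E (u x) * pd i u x * pd j u x +
      (a (v x) + b (v x) * r (u x) + c (v x) * h (u x)) ^ 2 * pd i v x * pd j v x) :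
    SmoothlyRealizableAt g Ω p := by
  obtain ⟨J, hJ, hvJ, γ, T, e, f, hγs, hes, hfs, hfr⟩ := H8Mould.frame ha hb hc (v p)
  have hU1 : IsOpen (Ω ∩ u ⁻¹' I) := hu.continuousOn.isOpen_inter_preimage hΩ hI
  have hU2 : IsOpen (Ω ∩ v ⁻¹' J) := hv.continuousOn.isOpen_inter_preimage hΩ hJ
  refine ⟨(Ω ∩ u ⁻¹' I) ∩ (Ω ∩ v ⁻¹' J), hU1.inter hU2, ⟨⟨hp, hpI⟩, ⟨hp, hvJ⟩⟩,
    fun x hx => hx.1.1, fun x => γ (v x) + (r (u x) • e (v x) + h (u x) • f (v x)), ?_, ?_⟩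
  · have hu' : ContDiffOn ℝ ∞ u ((Ω ∩ u ⁻¹' I) ∩ (Ω ∩ v ⁻¹' J)) :=
      hu.mono (fun x hx => hx.1.1)
    have hv' : ContDiffOn ℝ ∞ v ((Ω ∩ u ⁻¹' I) ∩ (Ω ∩ v ⁻¹' J)) :=
      hv.mono (fun x hx => hx.1.1)
    have m1 : MapsTo u ((Ω ∩ u ⁻¹' I) ∩ (Ω ∩ v ⁻¹' J)) I := fun x hx => hx.1.2
    have m2 : MapsTo v ((Ω ∩ u ⁻¹' I) ∩ (Ω ∩ v ⁻¹' J)) J := fun x hx => hx.2.2
    exact (hγs.comp hv' m2).add (((hr.comp hu' m1).smul (hes.comp hv' m2)).add
      ((hh.comp hu' m1).smul (hfs.comp hv' m2)))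
  · intro x hx i j
    have hux : HasFDerivAt u (fderiv ℝ u x) x :=
      ((hu.contDiffAt (hΩ.mem_nhds hx.1.1)).differentiableAt (by simp)).hasFDerivAt
    have hvx : HasFDerivAt v (fderiv ℝ v x) x :=
      ((hv.contDiffAt (hΩ.mem_nhds hx.1.1)).differentiableAt (by simp)).hasFDerivAt
    obtain ⟨dγ, de, df, TT, ee, ff, Te, Tf, ef⟩ := hfr (v x) hx.2.2
    have h1 := dγ.hasFDerivAt.comp x hvx
    have h2 := de.hasFDerivAt.comp x hvx
    have h3 := df.hasFDerivAt.comp x hvx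
    have h4 := (hdr (u x) hx.1.2).hasFDerivAt.comp x hux
    have h5 := (hdh (u x) hx.1.2).hasFDerivAt.comp x hux
    have htot := h1.add ((h4.smul h2).add (h5.smul h3))
    have key : ∀ i, pd i (fun x => γ (v x) + (r (u x) • e (v x) + h (u x) • f (v x))) x =
        pd i v x • ((a (v x) + b (v x) * r (u x) + c (v x) * h (u x)) • T (v x)) +
          pd i u x • (dr (u x) • e (v x) + dh (u x) • f (v x)) := by
      intro i
      have h6 : fderiv ℝ (fun x => γ (v x) + (r (u x) • e (v x) + h (u x) • f (v x))) x = _ :=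
        htot.fderiv
      unfold pd
      rw [h6]
      simp
      module
    have eT : inner ℝ (e (v x)) (T (v x)) = 0 := by rw [real_inner_comm]; exact Te
    have fT : inner ℝ (f (v x)) (T (v x)) = 0 := by rw [real_inner_comm]; exact Tf
    have fe : inner ℝ (f (v x)) (e (v x)) = 0 := by rw [real_inner_comm]; exact ef
    rw [key i, key j, hg x hx.1.1 i j, hE _ hx.1.2]
    simp only [inner_add_left, inner_add_right, real_inner_smul_left, real_inner_smul_right,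
      TT, ee, ff, Te, Tf, ef, eT, fT, fe]
    ring

theorem pos_of_metric {Ω : Set (EuclideanSpace ℝ (Fin 2))}
    {g : EuclideanSpace ℝ (Fin 2) → Fin 2 → Fin 2 → ℝ} {x : EuclideanSpace ℝ (Fin 2)}
    (hx : x ∈ Ω) (hm : SmoothMetricOn g Ω) {E w u1 u2 v1 v2 : ℝ}
    (h11 : g x 0 0 = E * u1 * u1 + w * v1 * v1) (h12 : g x 0 1 = E * u1 * u2 + w * v1 * v2)
    (h21 : g x 1 0 = E * u2 * u1 + w * v2 * v1) (h22 : g x 1 1 = E * u2 * u2 + w * v2 * v2) :
    0 < E := by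
  have hpos := (hm.2 x hx).2
  have key : ∀ s t : ℝ, (s ≠ 0 ∨ t ≠ 0) → v1 * s + v2 * t = 0 → 0 < E * (u1 * s + u2 * t) ^ 2 := by
    intro s t hst hv
    have hne : (![s, t] : Fin 2 → ℝ) ≠ 0 := by
      intro h0
      have h1 := congrFun h0 0
      have h2 := congrFun h0 1
      simp at h1 h2
      rcases hst with h | h
      · exact h h1
      · exact h h2
    have h := hpos ![s, t] hne
    simp only [Fin.sum_univ_two, h11, h12, h21, h22, Matrix.cons_val_zero, Matrix.cons_val_one] at h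
    have e1 : (E * u1 * u1 + w * v1 * v1) * s * s + (E * u1 * u2 + w * v1 * v2) * s * t +
        ((E * u2 * u1 + w * v2 * v1) * t * s + (E * u2 * u2 + w * v2 * v2) * t * t) =
        E * (u1 * s + u2 * t) ^ 2 + w * (v1 * s + v2 * t) ^ 2 := by ring
    rw [e1, hv] at h
    simpa using h
  have fin : ∀ z : ℝ, 0 < E * z ^ 2 → 0 < E := by
    intro z hz
    by_contra hE
    have : E * z ^ 2 ≤ 0 := mul_nonpos_of_nonpos_of_nonneg (not_lt.1 hE) (sq_nonneg z)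
    linarith
  by_cases h0 : v1 = 0 ∧ v2 = 0
  · exact fin _ (key 1 0 (Or.inl one_ne_zero) (by simp [h0.1]))
  · refine fin _ (key (-v2) v1 ?_ (by ring))
    by_contra hcon
    push Not at hcon
    exact h0 ⟨hcon.2, by linarith [hcon.1]⟩

/-- **Local smooth realizability of moulding metrics.** -/
theorem result (Ω : Set (EuclideanSpace ℝ (Fin 2))) (hΩ : IsOpen Ω)
    (g : EuclideanSpace ℝ (Fin 2) → Fin 2 → Fin 2 → ℝ) (hm : SmoothMetricOn g Ω)
    (p : EuclideanSpace ℝ (Fin 2)) (hp : p ∈ Ω)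
    (u v : EuclideanSpace ℝ (Fin 2) → ℝ) (hu : ContDiffOn ℝ ∞ u Ω) (hv : ContDiffOn ℝ ∞ v Ω)
    (E a b c r h : ℝ → ℝ) (hE : ContDiff ℝ ∞ E) (ha : ContDiff ℝ ∞ a) (hb : ContDiff ℝ ∞ b)
    (hc : ContDiff ℝ ∞ c) (hr : ContDiff ℝ ∞ r) (hh : ContDiff ℝ ∞ h)
    (hcase : (∀ t, c t = 0) ∨ ∀ s, E s = deriv r s ^ 2 + deriv h s ^ 2)
    (hg : ∀ x ∈ Ω, ∀ i j, g x i j = E (u x) * pd i u x * pd j u x +
      (a (v x) + b (v x) * r (u x) + c (v x) * h (u x)) ^ 2 * pd i v x * pd j v x) :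
    SmoothlyRealizableAt g Ω p := by
  rcases hcase with hc0 | hcase
  · have hE0 : 0 < E (u p) := pos_of_metric (w := (a (v p) + b (v p) * r (u p) +
      c (v p) * h (u p)) ^ 2) hp hm (hg p hp 0 0) (hg p hp 0 1) (hg p hp 1 0) (hg p hp 1 1)
    set D := deriv r (u p) ^ 2 with hD
    have hD0 : 0 ≤ D := sq_nonneg _
    obtain ⟨ε, hε, hε'⟩ : ∃ ε : ℝ, 0 < ε ∧ ε ^ 2 * D < E (u p) := by
      refine ⟨min 1 (E (u p) / (D + 1)), lt_min one_pos (by positivity), ?_⟩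
      set m := min 1 (E (u p) / (D + 1)) with hmd
      have m0 : 0 ≤ m := le_min zero_le_one (by positivity)
      have m1 : m ≤ 1 := min_le_left _ _
      have m2 : m ≤ E (u p) / (D + 1) := min_le_right _ _
      have m3 : m ^ 2 ≤ m := by nlinarith
      calc m ^ 2 * D ≤ m * D := mul_le_mul_of_nonneg_right m3 hD0
        _ ≤ E (u p) / (D + 1) * D := mul_le_mul_of_nonneg_right m2 hD0
        _ < E (u p) := by
          rw [div_mul_eq_mul_div, div_lt_iff₀ (by positivity)]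
          nlinarith
    have hr' : ContDiff ℝ ∞ (deriv r) := (contDiff_infty_iff_deriv.1 hr).2
    set q : ℝ → ℝ := fun s => E s - ε ^ 2 * deriv r s ^ 2 with hq
    have hqs : ContDiff ℝ ∞ q := hE.sub (contDiff_const.mul (hr'.pow 2))
    have hI : IsOpen {s | 0 < q s} := isOpen_lt continuous_const hqs.continuous
    have hpI : u p ∈ {s | 0 < q s} := by
      show 0 < E (u p) - ε ^ 2 * deriv r (u p) ^ 2
      linarith
    have hsq : Continuous fun s => Real.sqrt (q s) := Real.continuous_sqrt.comp hqs.continuous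
    have hdh : ∀ s, HasDerivAt (fun s => ∫ t in (u p)..s, Real.sqrt (q t)) (Real.sqrt (q s)) s :=
      fun s => (hsq.integral_hasStrictDerivAt (u p) s).hasDerivAt
    refine assemble hΩ hp hu hv hI hpI (r := fun s => ε * r s)
      (h := fun s => ∫ t in (u p)..s, Real.sqrt (q t)) (dr := fun s => ε * deriv r s)
      (dh := fun s => Real.sqrt (q s)) (E := E) (a := a) (b := fun t => b t / ε)
      (c := fun _ => 0) (contDiff_const.mul hr).contDiffOn ?_ ?_ (fun s _ => hdh s) ?_ ha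
      (hb.div_const ε) contDiff_const ?_
    · rw [contDiffOn_infty_iff_deriv_of_isOpen hI]
      refine ⟨fun s _ => (hdh s).differentiableAt.differentiableWithinAt, ?_⟩
      exact (hqs.contDiffOn.sqrt (fun s hs => ne_of_gt hs)).congr (fun s _ => (hdh s).deriv)
    · intro s _
      exact ((hr.differentiable (by simp) s).hasDerivAt).const_mul ε
    · intro s hs
      rw [Real.sq_sqrt (le_of_lt hs)]
      simp only [hq]
      ring
    · intro x hx i j
      rw [hg x hx i j, hc0]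
      field_simp
      ring
  · exact assemble hΩ hp hu hv isOpen_univ (mem_univ _) hr.contDiffOn hh.contDiffOn
      (fun s _ => (hr.differentiable (by simp) s).hasDerivAt)
      (fun s _ => (hh.differentiable (by simp) s).hasDerivAt) (fun s _ => hcase s) ha hb hc hg

end Vale.Agent.Results.P229.MouldingMetrics
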