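import Vale.Agent.H8MouldB

namespace Vale.Agent.Results.P229.NetMetrics

open scoped ContDiff
open Set

/-- The partial derivative of `f` at `x` in the `i`-th coordinate direction of the plane. -/
noncomputable def pd {X : Type*} [NormedAddCommGroup X] [NormedSpace ℝ X] (i : Fin 2)
    (f : EuclideanSpace ℝ (Fin 2) → X) (x : EuclideanSpace ℝ (Fin 2)) : X :=
  fderiv ℝ f x (EuclideanSpace.single i 1)

/-- `g` is a smooth Riemannian metric on the plane set `Ω`: its coefficients are smooth on `Ω`,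
symmetric, and positive definite at every point of `Ω`. -/
def SmoothMetricOn (g : EuclideanSpace ℝ (Fin 2) → Fin 2 → Fin 2 → ℝ)
    (Ω : Set (EuclideanSpace ℝ (Fin 2))) : Prop :=
  (∀ i j, ContDiffOn ℝ ∞ (fun x => g x i j) Ω) ∧
  ∀ x ∈ Ω, (∀ i j, g x i j = g x j i) ∧
    ∀ ξ : Fin 2 → ℝ, ξ ≠ 0 → 0 < ∑ i, ∑ j, g x i j * ξ i * ξ j

/-- Some open neighbourhood `U ⊆ Ω` of `p` has a smooth map to Euclidean three-space with
`⟨∂ᵢF, ∂ⱼF⟩ = gᵢⱼ` on `U`. -/
def SmoothlyRealizableAt (g : EuclideanSpace ℝ (Fin 2) → Fin 2 → Fin 2 → ℝ)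
    (Ω : Set (EuclideanSpace ℝ (Fin 2))) (p : EuclideanSpace ℝ (Fin 2)) : Prop :=
  ∃ U : Set (EuclideanSpace ℝ (Fin 2)), IsOpen U ∧ p ∈ U ∧ U ⊆ Ω ∧
    ∃ F : EuclideanSpace ℝ (Fin 2) → EuclideanSpace ℝ (Fin 3), ContDiffOn ℝ ∞ F U ∧
      ∀ x ∈ U, ∀ i j, inner ℝ (pd i F x) (pd j F x) = g x i j

/-- `g = E(u) du² + (a(v) + b(v) r(u) + c(v) h(u))² dv²` on `Ω` with smooth functions of one
variable, where `c = 0` or `E = r'² + h'²`. -/
def Moulding (g : EuclideanSpace ℝ (Fin 2) → Fin 2 → Fin 2 → ℝ)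
    (Ω : Set (EuclideanSpace ℝ (Fin 2))) (u v : EuclideanSpace ℝ (Fin 2) → ℝ) : Prop :=
  ∃ E a b c r h : ℝ → ℝ, ContDiff ℝ ∞ E ∧ ContDiff ℝ ∞ a ∧ ContDiff ℝ ∞ b ∧ ContDiff ℝ ∞ c ∧
    ContDiff ℝ ∞ r ∧ ContDiff ℝ ∞ h ∧
    ((∀ t, c t = 0) ∨ ∀ s, E s = deriv r s ^ 2 + deriv h s ^ 2) ∧
    ∀ x ∈ Ω, ∀ i j, g x i j = E (u x) * pd i u x * pd j u x +
      (a (v x) + b (v x) * r (u x) + c (v x) * h (u x)) ^ 2 * pd i v x * pd j v x

/-- `g = E(u) du² + 2 P(u) Q(v) du dv + G(v) dv²` on `Ω` with smooth functions of one variable. -/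
def ProductNet (g : EuclideanSpace ℝ (Fin 2) → Fin 2 → Fin 2 → ℝ)
    (Ω : Set (EuclideanSpace ℝ (Fin 2))) (u v : EuclideanSpace ℝ (Fin 2) → ℝ) : Prop :=
  ∃ E P Q G : ℝ → ℝ, ContDiff ℝ ∞ E ∧ ContDiff ℝ ∞ P ∧ ContDiff ℝ ∞ Q ∧ ContDiff ℝ ∞ G ∧
    ∀ x ∈ Ω, ∀ i j, g x i j = E (u x) * pd i u x * pd j u x +
      P (u x) * Q (v x) * (pd i u x * pd j v x + pd i v x * pd j u x) +
      G (v x) * pd i v x * pd j v x

theorem moulding {Ω : Set (EuclideanSpace ℝ (Fin 2))} (hΩ : IsOpen Ω)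
    {g : EuclideanSpace ℝ (Fin 2) → Fin 2 → Fin 2 → ℝ} (hm : SmoothMetricOn g Ω)
    {p : EuclideanSpace ℝ (Fin 2)} (hp : p ∈ Ω)
    {u v : EuclideanSpace ℝ (Fin 2) → ℝ} (hu : ContDiffOn ℝ ∞ u Ω) (hv : ContDiffOn ℝ ∞ v Ω)
    (hM : Moulding g Ω u v) : SmoothlyRealizableAt g Ω p := by
  obtain ⟨E, a, b, c, r, h, hE, ha, hb, hc, hr, hh, hcase, hg⟩ := hM
  rcases hcase with hc0 | hcase
  · have hE0 : 0 < E (u p) := by
      have := H8MouldB.pos_form (E := E (u p)) (m := 0)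
        (w := (a (v p) + b (v p) * r (u p) + c (v p) * h (u p)) ^ 2) (u1 := pd 0 u p)
        (u2 := pd 1 u p) (v1 := pd 0 v p) (v2 := pd 1 v p) (hm.2 p hp).2
        (by rw [hg p hp 0 0]; ring)
        (by rw [hg p hp 0 1]; ring) (by rw [hg p hp 1 0]; ring) (by rw [hg p hp 1 1]; ring)
        1 0 (Or.inl one_ne_zero)
      simpa using this
    set D := deriv r (u p) ^ 2 with hD
    have hD0 : 0 ≤ D := sq_nonneg _
    obtain ⟨ε, hε, hε'⟩ : ∃ ε : ℝ, 0 < ε ∧ ε ^ 2 * D < E (u p) := by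
      refine ⟨min 1 (E (u p) / (D + 1)), lt_min one_pos (by positivity), ?_⟩
      set m := min 1 (E (u p) / (D + 1)) with hmd
      have m0 : 0 ≤ m := le_min zero_le_one (by positivity)
      have m1 : m ≤ 1 := min_le_left _ _
      have m2 : m ≤ E (u p) / (D + 1) := min_le_right _ _
      have m3 : m ^ 2 ≤ m := by nlinarith
      calc m ^ 2 * D ≤ m * D := mul_le_mul_of_nonneg_right m3 hD0
        _ ≤ E (u p) / (D + 1) * D := mul_le_mul_of_nonneg_right m2 hD0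
        _ < E (u p) := by
          rw [div_mul_eq_mul_div, div_lt_iff₀ (by positivity)]
          nlinarith
    have hr' : ContDiff ℝ ∞ (deriv r) := (contDiff_infty_iff_deriv.1 hr).2
    obtain ⟨k, hk, hks⟩ := H8MouldB.antideriv (q := fun s => E s - ε ^ 2 * deriv r s ^ 2)
      (hE.sub (contDiff_const.mul (hr'.pow 2))) (u p)
    have hI : IsOpen {s | 0 < E s - ε ^ 2 * deriv r s ^ 2} :=
      isOpen_lt continuous_const (hE.sub (contDiff_const.mul (hr'.pow 2))).continuous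
    have hpI : u p ∈ {s | 0 < E s - ε ^ 2 * deriv r s ^ 2} := by
      show 0 < E (u p) - ε ^ 2 * deriv r (u p) ^ 2
      linarith
    refine H8MouldB.assemble hΩ hp hu hv hI hpI (r := fun s => ε * r s)
      (h := k) (dr := fun s => ε * deriv r s)
      (dh := fun s => Real.sqrt (E s - ε ^ 2 * deriv r s ^ 2)) (E := E) (a := a)
      (b := fun t => b t / ε) (c := fun _ => 0) (contDiff_const.mul hr).contDiffOn hks ?_
      (fun s _ => hk s) ?_ ha (hb.div_const ε) contDiff_const ?_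
    · intro s _
      exact ((hr.differentiable (by simp) s).hasDerivAt).const_mul ε
    · intro s hs
      rw [Real.sq_sqrt (le_of_lt hs)]
      ring
    · intro x hx i j
      rw [hg x hx i j, hc0]
      unfold pd
      field_simp
      ring
  · exact H8MouldB.assemble hΩ hp hu hv isOpen_univ (mem_univ _) hr.contDiffOn hh.contDiffOn
      (fun s _ => (hr.differentiable (by simp) s).hasDerivAt)
      (fun s _ => (hh.differentiable (by simp) s).hasDerivAt) (fun s _ => hcase s) ha hb hc hg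

theorem productNet {Ω : Set (EuclideanSpace ℝ (Fin 2))} (hΩ : IsOpen Ω)
    {g : EuclideanSpace ℝ (Fin 2) → Fin 2 → Fin 2 → ℝ} (hm : SmoothMetricOn g Ω)
    {p : EuclideanSpace ℝ (Fin 2)} (hp : p ∈ Ω)
    {u v : EuclideanSpace ℝ (Fin 2) → ℝ} (hu : ContDiffOn ℝ ∞ u Ω) (hv : ContDiffOn ℝ ∞ v Ω)
    (hN : ProductNet g Ω u v) : SmoothlyRealizableAt g Ω p := by
  obtain ⟨E, P, Q, G, hE, hP, hQ, hG, hg⟩ := hN
  have hpos := H8MouldB.pos_form (E := E (u p)) (m := P (u p) * Q (v p)) (w := G (v p))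
    (hm.2 p hp).2 (hg p hp 0 0) (hg p hp 0 1) (hg p hp 1 0) (hg p hp 1 1)
  have hE0 : 0 < E (u p) := by simpa using hpos 1 0 (Or.inl one_ne_zero)
  have hG0 : 0 < G (v p) := by simpa using hpos 0 1 (Or.inr one_ne_zero)
  have hdet : P (u p) ^ 2 * Q (v p) ^ 2 < E (u p) * G (v p) := by
    have h := hpos (-(P (u p) * Q (v p))) (E (u p)) (Or.inr hE0.ne')
    have h' : 0 < E (u p) * (E (u p) * G (v p) - P (u p) ^ 2 * Q (v p) ^ 2) := by
      refine lt_of_lt_of_eq h ?_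
      ring
    have := (pos_iff_pos_of_mul_pos h').1 hE0
    linarith
  obtain ⟨τ, hτ, hτ1, hτ2⟩ : ∃ τ : ℝ, 0 < τ ∧ τ ^ 2 * P (u p) ^ 2 < E (u p) ∧
      Q (v p) ^ 2 / τ ^ 2 < G (v p) := by
    set η := E (u p) - P (u p) ^ 2 * Q (v p) ^ 2 / G (v p) with hη
    have hη0 : 0 < η := by
      rw [hη, sub_pos, div_lt_iff₀ hG0]
      exact hdet
    set lam := Q (v p) ^ 2 / G (v p) + η / (P (u p) ^ 2 + 1) with hlam
    have hl0 : 0 < lam := by positivity
    refine ⟨Real.sqrt lam, Real.sqrt_pos.2 hl0, ?_, ?_⟩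
    · rw [Real.sq_sqrt hl0.le, hlam]
      have h1 : η / (P (u p) ^ 2 + 1) * P (u p) ^ 2 < η := by
        rw [div_mul_eq_mul_div, div_lt_iff₀ (by positivity)]
        nlinarith
      have h2 : Q (v p) ^ 2 / G (v p) * P (u p) ^ 2 = E (u p) - η := by
        rw [hη]
        ring
      rw [add_mul, h2]
      linarith
    · rw [Real.sq_sqrt hl0.le, div_lt_iff₀ hl0]
      have h1 : Q (v p) ^ 2 / G (v p) < lam := by
        rw [hlam]
        have : 0 < η / (P (u p) ^ 2 + 1) := by positivity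
        linarith
      rw [div_lt_iff₀ hG0] at h1
      linarith
  have hq1 : ContDiff ℝ ∞ fun s => E s - (τ * P s) ^ 2 := hE.sub ((contDiff_const.mul hP).pow 2)
  have hq2 : ContDiff ℝ ∞ fun s => G s - (Q s / τ) ^ 2 := hG.sub ((hQ.div_const τ).pow 2)
  obtain ⟨A, hA, hAs⟩ := H8MouldB.antideriv' (q := fun s => τ * P s) (contDiff_const.mul hP)
  obtain ⟨B, hB, hBs⟩ := H8MouldB.antideriv' (q := fun s => Q s / τ) (hQ.div_const τ)
  obtain ⟨H, hH, hHs⟩ := H8MouldB.antideriv hq1 (u p)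
  obtain ⟨K, hK, hKs⟩ := H8MouldB.antideriv hq2 (v p)
  refine H8MouldB.assembleT hΩ hp hu hv (I := {s | 0 < E s - (τ * P s) ^ 2})
    (J := {s | 0 < G s - (Q s / τ) ^ 2}) (isOpen_lt continuous_const hq1.continuous) ?_
    (isOpen_lt continuous_const hq2.continuous) ?_
    (α := fun s => A s • EuclideanSpace.single (0 : Fin 3) (1 : ℝ) +
      H s • EuclideanSpace.single (1 : Fin 3) (1 : ℝ))
    (β := fun s => B s • EuclideanSpace.single (0 : Fin 3) (1 : ℝ) +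
      K s • EuclideanSpace.single (2 : Fin 3) (1 : ℝ))
    ((hAs.contDiffOn.smul contDiffOn_const).add (hHs.smul contDiffOn_const))
    ((hBs.contDiffOn.smul contDiffOn_const).add (hKs.smul contDiffOn_const))
    (fun s _ => ((hA s).smul_const _).add ((hH s).smul_const _))
    (fun s _ => ((hB s).smul_const _).add ((hK s).smul_const _)) ?_
  · show 0 < E (u p) - (τ * P (u p)) ^ 2
    rw [mul_pow]
    linarith
  · show 0 < G (v p) - (Q (v p) / τ) ^ 2
    rw [div_pow]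
    linarith
  · intro x hx hxI hxJ i j
    rw [hg x hx i j]
    have s1 := Real.sq_sqrt (le_of_lt (show 0 < E (u x) - (τ * P (u x)) ^ 2 from hxI))
    have s2 := Real.sq_sqrt (le_of_lt (show 0 < G (v x) - (Q (v x) / τ) ^ 2 from hxJ))
    have hE' : E (u x) = (τ * P (u x)) ^ 2 + Real.sqrt (E (u x) - (τ * P (u x)) ^ 2) ^ 2 := by
      rw [s1]; ring
    have hG' : G (v x) = (Q (v x) / τ) ^ 2 + Real.sqrt (G (v x) - (Q (v x) / τ) ^ 2) ^ 2 := by
      rw [s2]; ring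
    have hPQ : P (u x) * Q (v x) = (τ * P (u x)) * (Q (v x) / τ) := by
      field_simp
    have i1 : ∀ m n : Fin 3, inner ℝ (EuclideanSpace.single m (1 : ℝ) : EuclideanSpace ℝ (Fin 3))
        (EuclideanSpace.single n (1 : ℝ)) = if m = n then 1 else 0 := by
      intro m n
      rw [EuclideanSpace.inner_single_left]
      simp
    simp only [inner_add_left, inner_add_right, real_inner_smul_left, real_inner_smul_right, i1]
    rw [hPQ]
    conv_lhs => rw [hE', hG']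
    unfold pd
    simp
    ring

/-- **Local smooth realizability of moulding metrics and of product-net metrics.** -/
theorem result (Ω : Set (EuclideanSpace ℝ (Fin 2))) (hΩ : IsOpen Ω)
    (g : EuclideanSpace ℝ (Fin 2) → Fin 2 → Fin 2 → ℝ) (hm : SmoothMetricOn g Ω)
    (p : EuclideanSpace ℝ (Fin 2)) (hp : p ∈ Ω)
    (u v : EuclideanSpace ℝ (Fin 2) → ℝ) (hu : ContDiffOn ℝ ∞ u Ω) (hv : ContDiffOn ℝ ∞ v Ω)
    (h : Moulding g Ω u v ∨ ProductNet g Ω u v) : SmoothlyRealizableAt g Ω p := by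
  rcases h with h | h
  · exact moulding hΩ hm hp hu hv h
  · exact productNet hΩ hm hp hu hv h

end Vale.Agent.Results.P229.NetMetrics
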